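import Vale.Agent.P038.H571.Gap

/-!
# P038 (H571): the inner minimum is at most the outer minimum
-/

namespace Vale.Agent.P038.H571

open Finset

variable {V : Type*} [Fintype V] [DecidableEq V] {N B U X Y : V → Finset V}

/-- outer pairs -/
structure Outer (N B U : V → Finset V) : Prop where
  base : ∀ a, N a ⊆ B a
  sub : ∀ a, B a ⊆ U a
  rev : ∀ a x, x ∈ U a → a ∈ N x → x = a

/-- outer cost -/
def oc (N : V → Finset V) (q : (V → Finset V) × (V → Finset V)) : ℤ :=
  ∑ a, (cc N (q.1 a) + (((q.2 a).card : ℤ) - (mt N q.2 a).card))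

/-- inner pairs -/
structure Inner (N X Y : V → Finset V) : Prop where
  memX : ∀ a, a ∈ X a
  memY : ∀ a, a ∈ Y a
  comp : ∀ a b, b ∈ cl N (X a) → a ∈ cl N (Y b) → a = b

/-- inner cost -/
def ic (N : V → Finset V) (q : (V → Finset V) × (V → Finset V)) : ℤ :=
  ∑ a, (cc N (q.1 a) + cc N (q.2 a))

theorem exists_outer (hanti : ∀ a b, b ∈ N a → a ∈ N b → a = b) :
    ∃ B U, Outer N B U ∧ ∀ B' U', Outer N B' U' → oc N (B, U) ≤ oc N (B', U') := by
  classical
  obtain ⟨q, hq, hmin⟩ := Finset.exists_min_image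
    (univ.filter fun q : (V → Finset V) × (V → Finset V) => Outer N q.1 q.2) (oc N)
    ⟨(N, N), mem_filter.2 ⟨mem_univ _, ⟨fun _ => Subset.rfl, fun _ => Subset.rfl,
      fun a x h1 h2 => hanti x a h2 h1⟩⟩⟩
  exact ⟨q.1, q.2, (mem_filter.1 hq).2, fun B' U' h =>
    hmin (B', U') (mem_filter.2 ⟨mem_univ _, h⟩)⟩

theorem exists_inner (hanti : ∀ a b, b ∈ N a → a ∈ N b → a = b) :
    ∃ X Y, Inner N X Y ∧ ∀ X' Y', Inner N X' Y' → ic N (X, Y) ≤ ic N (X', Y') := by
  classical
  obtain ⟨q, hq, hmin⟩ := Finset.exists_min_image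
    (univ.filter fun q : (V → Finset V) × (V → Finset V) => Inner N q.1 q.2) (ic N)
    ⟨(fun a => {a}, fun a => {a}), mem_filter.2 ⟨mem_univ _, ⟨fun a => mem_singleton_self a,
      fun a => mem_singleton_self a, fun a b h1 h2 => by
        obtain ⟨x, hx, h1'⟩ := mem_cl.1 h1
        obtain ⟨y, hy, h2'⟩ := mem_cl.1 h2
        have hx' : x = a := mem_singleton.1 hx
        have hy' : y = b := mem_singleton.1 hy
        rw [hx'] at h1'
        rw [hy'] at h2'
        exact hanti _ _ h1' h2'⟩⟩⟩
  exact ⟨q.1, q.2, (mem_filter.1 hq).2, fun B' U' h =>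
    hmin (B', U') (mem_filter.2 ⟨mem_univ _, h⟩)⟩

theorem outer_R (h : Outer N B U)
    (hmin : ∀ B' U', Outer N B' U' → oc N (B, U) ≤ oc N (B', U')) (a : V) (Y : Finset V)
    (h1 : B a ⊆ Y) (h2 : Y ⊆ U a) : cc N (B a) ≤ cc N Y := by
  have h3 : Outer N (Function.update B a Y) U := by
    refine ⟨fun a' => ?_, fun a' => ?_, h.rev⟩
    · by_cases ha : a' = a
      · subst ha
        rw [Function.update_self]
        exact (h.base _).trans h1
      · rw [Function.update_of_ne ha]
        exact h.base _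
    · by_cases ha : a' = a
      · subst ha
        rw [Function.update_self]
        exact h2
      · rw [Function.update_of_ne ha]
        exact h.sub _
  have h4 := hmin _ _ h3
  unfold oc at h4
  simp only at h4
  rw [Finset.sum_add_distrib, Finset.sum_add_distrib] at h4
  have h5 : ∑ a', cc N (Function.update B a Y a') = ∑ a', cc N (B a') - cc N (B a) + cc N Y := by
    rw [← Finset.add_sum_erase univ (fun a' => cc N (Function.update B a Y a')) (mem_univ a),
      ← Finset.add_sum_erase univ (fun a' => cc N (B a')) (mem_univ a)]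
    have h6 : ∑ x ∈ univ.erase a, cc N (Function.update B a Y x) =
        ∑ x ∈ univ.erase a, cc N (B x) :=
      Finset.sum_congr rfl fun x hx => by
        rw [Function.update_of_ne (Finset.ne_of_mem_erase hx)]
    rw [h6]
    simp only [Function.update_self]
    ring
  linarith

theorem sum_mem (S : Finset V) : ∑ a : V, (if a ∈ S then (1 : ℤ) else 0) = S.card := by
  rw [Finset.sum_boole]
  congr 2
  exact filter_univ_mem S

theorem outer_C (h : Outer N B U)
    (hmin : ∀ B' U', Outer N B' U' → oc N (B, U) ≤ oc N (B', U')) (b : V) (S : Finset V)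
    (hS : ∀ a ∈ S, b ∈ U a ∧ b ∉ B a) :
    S.card ≤ (S.biUnion fun a => (N a).filter fun z => b ∈ mt N U z).card := by
  set Z := S.biUnion fun a => (N a).filter fun z => b ∈ mt N U z with hZ
  set U' : V → Finset V := fun a => if a ∈ S then (U a).erase b else U a with hU'
  have hU1 : ∀ a, a ∈ S → U' a = (U a).erase b := fun a ha => if_pos ha
  have hU2 : ∀ a, a ∉ S → U' a = U a := fun a ha => if_neg ha
  have hUs : ∀ a, U' a ⊆ U a := by
    intro a
    by_cases ha : a ∈ S
    · rw [hU1 a ha]
      exact erase_subset _ _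
    · rw [hU2 a ha]
  have h3 : Outer N B U' := by
    refine ⟨h.base, fun a => ?_, fun a x hx => h.rev a x (hUs a hx)⟩
    by_cases ha : a ∈ S
    · rw [hU1 a ha]
      intro x hx
      exact mem_erase.2 ⟨fun he => (hS a ha).2 (he ▸ hx), h.sub a hx⟩
    · rw [hU2 a ha]
      exact h.sub a
  have h4 := hmin _ _ h3
  unfold oc at h4
  simp only at h4
  rw [Finset.sum_add_distrib, Finset.sum_add_distrib] at h4
  have h5 : ∀ a, ((U' a).card : ℤ) - (mt N U' a).card ≤
      (((U a).card : ℤ) - (mt N U a).card) +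
        ((if a ∈ Z then (1 : ℤ) else 0) - (if a ∈ S then (1 : ℤ) else 0)) := by
    intro a
    have e1 : ((U' a).card : ℤ) + (if a ∈ S then (1 : ℤ) else 0) ≤ (U a).card := by
      by_cases ha : a ∈ S
      · rw [hU1 a ha, if_pos ha]
        have := Finset.card_erase_add_one (hS a ha).1
        omega
      · rw [hU2 a ha, if_neg ha, add_zero]
    have e2 : ((mt N U a).card : ℤ) ≤ (mt N U' a).card + (if a ∈ Z then (1 : ℤ) else 0) := by
      by_cases ha : a ∈ Z
      · rw [if_pos ha]
        have h6 : (mt N U a).erase b ⊆ mt N U' a := by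
          intro x hx
          obtain ⟨hx1, hx2⟩ := mem_erase.1 hx
          refine mem_mt.2 fun a' ha' => ?_
          have h7 := mem_mt.1 hx2 a' ha'
          by_cases hs : a' ∈ S
          · rw [hU1 a' hs]
            exact mem_erase.2 ⟨hx1, h7⟩
          · rw [hU2 a' hs]
            exact h7
        have h7 := card_le_card h6
        have h8 := Finset.pred_card_le_card_erase (s := mt N U a) (a := b)
        omega
      · rw [if_neg ha, add_zero]
        have h6 : mt N U a ⊆ mt N U' a := by
          intro x hx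
          refine mem_mt.2 fun a' ha' => ?_
          have h7 := mem_mt.1 hx a' ha'
          by_cases hs : a' ∈ S
          · rw [hU1 a' hs]
            refine mem_erase.2 ⟨fun he => ha ?_, h7⟩
            subst he
            rw [hZ]
            exact mem_biUnion.2 ⟨a', hs, mem_filter.2 ⟨ha', hx⟩⟩
          · rw [hU2 a' hs]
            exact h7
        exact_mod_cast card_le_card h6
    linarith
  have h6 := Finset.sum_le_sum fun a (_ : a ∈ (univ : Finset V)) => h5 a
  rw [Finset.sum_add_distrib, Finset.sum_sub_distrib (fun a => if a ∈ Z then (1 : ℤ) else 0),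
    sum_mem, sum_mem] at h6
  have h7 : (S.card : ℤ) ≤ Z.card := by linarith
  exact_mod_cast h7

theorem dc (F : V → Finset V) :
    ∑ x, ((F x).card : ℤ) = ∑ v, ((univ.filter fun x => v ∈ F x).card : ℤ) := by
  have h1 : ∀ x, ((F x).card : ℤ) = ∑ v : V, if v ∈ F x then (1 : ℤ) else 0 :=
    fun x => (sum_mem (F x)).symm
  have h2 : ∀ v, ((univ.filter fun x => v ∈ F x).card : ℤ) =
      ∑ x : V, if v ∈ F x then (1 : ℤ) else 0 := fun v => by
    rw [Finset.sum_boole]
  simp only [h1, h2]
  exact Finset.sum_comm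

theorem card_insert_compl {S : Finset V} {x : V} (hx : x ∈ S) :
    ((insert x (univ \ S)).card : ℤ) = Fintype.card V + 1 - S.card := by
  rw [card_insert_of_notMem (fun h => (mem_sdiff.1 h).2 hx)]
  have h1 := card_sdiff_add_card_eq_card (subset_univ S)
  rw [card_univ] at h1
  push_cast
  omega

/-- from an outer pair to an inner pair -/
theorem cand (hN : ∀ a, a ∈ N a) (h : Outer N B U)
    (hmin : ∀ B' U', Outer N B' U' → oc N (B, U) ≤ oc N (B', U')) :
    ∃ X Y, Inner N X Y ∧ ic N (X, Y) ≤ oc N (B, U) := by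
  have hgap := gap h.sub (outer_R h hmin) (outer_C h hmin)
  set Y : V → Finset V := fun x => univ.filter fun z => z = x ∨ x ∉ cl N (U z) with hY
  have mY : ∀ x z, z ∈ Y x ↔ (z = x ∨ x ∉ cl N (U z)) := fun x z => by simp [hY]
  have hself : ∀ a, a ∈ U a := fun a => h.sub a (h.base a (hN a))
  have hmU : ∀ a z, z ∈ N a → mt N U z ⊆ U a := fun a z hz x hx => mem_mt.1 hx a hz
  have hmB : ∀ a z, z ∈ N a → mt N B z ⊆ B a := fun a z hz x hx => mem_mt.1 hx a hz
  refine ⟨mt N B, Y, ⟨fun a => mem_mt.2 fun a' ha' => h.base a' ha',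
    fun a => (mY a a).2 (Or.inl rfl), fun a b hb ha => ?_⟩, ?_⟩
  · obtain ⟨z, hz, haz⟩ := mem_cl.1 ha
    have hzb : z = b := by
      rcases (mY b z).1 hz with h1 | h1
      · exact h1
      · exact absurd (cl_mono ((hmB z a haz).trans (h.sub z)) hb) h1
    subst hzb
    obtain ⟨y, hy, hby⟩ := mem_cl.1 hb
    have h2 := h.rev z y (h.sub z (hmB z a haz hy)) hby
    subst h2
    exact (h.rev a y (h.sub a (hmB a a (hN a) hy)) haz).symm
  · -- cost
    have c1 : ∀ z, ((univ.filter fun x => z ∈ Y x).card : ℤ) =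
        Fintype.card V + 1 - (cl N (U z)).card := by
      intro z
      rw [← card_insert_compl (mem_cl.2 ⟨z, hself z, hN z⟩)]
      congr 2
      ext x
      simp only [mem_filter, mem_univ, true_and, mem_insert, mem_sdiff, mY]
      constructor
      · rintro (h1 | h1)
        · exact Or.inl h1.symm
        · exact Or.inr h1
      · rintro (h1 | h1)
        · exact Or.inl h1.symm
        · exact Or.inr h1
    have c2 : ∀ v, ((univ.filter fun x => v ∈ cl N (Y x)).card : ℤ) ≤
        Fintype.card V + 1 - (cl N (mt N U v)).card := by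
      intro v
      have hdis : Disjoint (univ.filter fun x => v ∈ cl N (Y x))
          ((cl N (mt N U v)).erase v) := by
        rw [Finset.disjoint_left]
        intro x hx hx'
        obtain ⟨hxv, hx2⟩ := mem_erase.1 hx'
        obtain ⟨z, hz, hvz⟩ := mem_cl.1 (mem_filter.1 hx).2
        have hzx : z = x := by
          rcases (mY x z).1 hz with h1 | h1
          · exact h1
          · exact absurd (cl_mono (hmU z v hvz) hx2) h1
        subst hzx
        obtain ⟨y, hy, hby⟩ := mem_cl.1 hx2
        have h2 := h.rev z y (hmU z v hvz hy) hby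
        subst h2
        exact hxv (h.rev v y (hmU v v (hN v) hy) hvz)
      have h1 := card_union_of_disjoint hdis
      have h2 := Finset.card_le_univ ((univ.filter fun x => v ∈ cl N (Y x)) ∪
        ((cl N (mt N U v)).erase v))
      have h3 := Finset.pred_card_le_card_erase (s := cl N (mt N U v)) (a := v)
      omega
    have d1 := dc Y
    have d2 := dc (fun x => cl N (Y x))
    have e2 : ∑ v, ((univ.filter fun x => v ∈ cl N (Y x)).card : ℤ) ≤
        ∑ v, ((Fintype.card V : ℤ) + 1 - (cl N (mt N U v)).card) :=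
      Finset.sum_le_sum fun v _ => c2 v
    rw [Finset.sum_congr rfl fun z _ => c1 z] at d1
    rw [← d2] at e2
    unfold ic oc
    simp only [cc, Finset.sum_add_distrib, Finset.sum_sub_distrib] at hgap d1 e2 ⊢
    linarith

/-- from an inner pair to an outer pair -/
theorem shift (hN : ∀ a, a ∈ N a) (h : Inner N X Y) :
    ∃ B U, Outer N B U ∧ oc N (B, U) ≤ ic N (fun a => cl N (X a), fun a => cl N (Y a)) := by
  set U : V → Finset V := fun a => univ.filter fun x => x = a ∨ a ∉ cl N (Y x) with hU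
  have mU : ∀ a x, x ∈ U a ↔ (x = a ∨ a ∉ cl N (Y x)) := fun a x => by simp [hU]
  refine ⟨fun a => cl N (X a), U, ⟨fun a x hx => mem_cl.2 ⟨a, h.memX a, hx⟩,
    fun a x hx => (mU a x).2 ?_, fun a x hx ha => ?_⟩, ?_⟩
  · by_contra hcon
    push Not at hcon
    exact hcon.1 (h.comp a x hx hcon.2).symm
  · rcases (mU a x).1 hx with h1 | h1
    · exact h1
    · exact absurd (mem_cl.2 ⟨x, h.memY x, ha⟩) h1
  · have c1 : ∀ x, ((univ.filter fun a => x ∈ U a).card : ℤ) =
        Fintype.card V + 1 - (cl N (Y x)).card := by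
      intro x
      rw [← card_insert_compl (mem_cl.2 ⟨x, h.memY x, hN x⟩)]
      congr 2
      ext a
      simp only [mem_filter, mem_univ, true_and, mem_insert, mem_sdiff, mU]
      constructor
      · rintro (h1 | h1)
        · exact Or.inl h1.symm
        · exact Or.inr h1
      · rintro (h1 | h1)
        · exact Or.inl h1.symm
        · exact Or.inr h1
    have c2 : ∀ x, (Fintype.card V : ℤ) + 1 - (cl N (cl N (Y x))).card ≤
        (univ.filter fun z => x ∈ mt N U z).card := by
      intro x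
      rw [← card_insert_compl (mem_cl.2 ⟨x, mem_cl.2 ⟨x, h.memY x, hN x⟩, hN x⟩)]
      refine Int.ofNat_le.2 (card_le_card ?_)
      intro z hz
      refine mem_filter.2 ⟨mem_univ _, mem_mt.2 fun a ha => (mU a x).2 ?_⟩
      rcases mem_insert.1 hz with rfl | hz
      · by_contra hcon
        push Not at hcon
        exact hcon.1 (h.comp a z (mem_cl.2 ⟨a, h.memX a, ha⟩) hcon.2).symm
      · right
        intro h1
        exact (mem_sdiff.1 hz).2 (mem_cl.2 ⟨a, h1, ha⟩)
    have d1 := dc U
    have d2 := dc (fun z => mt N U z)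
    have e2 := Finset.sum_le_sum fun x (_ : x ∈ (univ : Finset V)) => c2 x
    rw [Finset.sum_congr rfl fun z _ => c1 z] at d1
    rw [← d2] at e2
    unfold ic oc
    simp only [cc, Finset.sum_add_distrib, Finset.sum_sub_distrib] at d1 e2 ⊢
    linarith

theorem subset_cl (hN : ∀ a, a ∈ N a) (S : Finset V) : S ⊆ cl N S := fun x hx =>
  mem_cl.2 ⟨x, hx, hN x⟩

/-- **a sink** -/
theorem sink [Nonempty V] (hN : ∀ a, a ∈ N a) (hanti : ∀ a b, b ∈ N a → a ∈ N b → a = b)
    (hG : ∀ S, cl N S ≠ S → cc N (cl N S) < cc N S) : ∃ a, N a = {a} := by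
  have hG0 : ∀ S, cc N (cl N S) ≤ cc N S := by
    intro S
    by_cases h : cl N S = S
    · rw [h]
    · exact (hG S h).le
  obtain ⟨X, Y, hI, hImin⟩ := exists_inner (N := N) hanti
  obtain ⟨B, U, hO, hOmin⟩ := exists_outer (N := N) hanti
  obtain ⟨X', Y', hI', h1⟩ := cand hN hO hOmin
  obtain ⟨B', U', hO', h2⟩ := shift hN hI
  have h3 := hImin X' Y' hI'
  have h4 := hOmin B' U' hO'
  have h5 : ic N (X, Y) ≤ ic N (fun a => cl N (X a), fun a => cl N (Y a)) := by linarith
  have hcl : ∀ a, cl N (X a) = X a := by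
    intro a
    by_contra hne
    have h6 : ic N (fun a => cl N (X a), fun a => cl N (Y a)) < ic N (X, Y) := by
      unfold ic
      refine Finset.sum_lt_sum (fun b _ => add_le_add (hG0 _) (hG0 _)) ⟨a, mem_univ _, ?_⟩
      exact add_lt_add_of_lt_of_le (hG _ hne) (hG0 _)
    linarith
  -- minimal closed set
  obtain ⟨S, hS, hSmin⟩ := Finset.exists_min_image
    (univ.filter fun S : Finset V => S.Nonempty ∧ cl N S = S) Finset.card
    ⟨univ, mem_filter.2 ⟨mem_univ _, univ_nonempty,
      Subset.antisymm (subset_univ _) (subset_cl hN _)⟩⟩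
  obtain ⟨⟨a, ha⟩, hScl⟩ := (mem_filter.1 hS).2
  refine ⟨a, ?_⟩
  by_contra hne
  obtain ⟨c, hc, hca⟩ : ∃ c ∈ N a, c ≠ a := by
    by_contra hcon
    push Not at hcon
    apply hne
    ext x
    rw [mem_singleton]
    exact ⟨fun hx => hcon x hx, fun hx => hx ▸ hN a⟩
  have hcS : c ∈ S := by
    rw [← hScl]
    exact mem_cl.2 ⟨a, ha, hc⟩
  have haX : a ∉ X c := by
    intro haX
    have h7 := hI.comp c a (subset_cl hN _ haX) (mem_cl.2 ⟨a, hI.memY a, hc⟩)
    exact hca h7
  have h8 : X c ∩ S ∈ univ.filter fun S : Finset V => S.Nonempty ∧ cl N S = S := by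
    refine mem_filter.2 ⟨mem_univ _, ⟨c, mem_inter.2 ⟨hI.memX c, hcS⟩⟩, ?_⟩
    refine Subset.antisymm ?_ (subset_cl hN _)
    intro x hx
    obtain ⟨y, hy, hxy⟩ := mem_cl.1 hx
    obtain ⟨hy1, hy2⟩ := mem_inter.1 hy
    refine mem_inter.2 ⟨?_, ?_⟩
    · rw [← hcl c]
      exact mem_cl.2 ⟨y, hy1, hxy⟩
    · rw [← hScl]
      exact mem_cl.2 ⟨y, hy2, hxy⟩
  have h9 := hSmin _ h8
  have h10 : X c ∩ S ⊂ S := by
    refine Finset.ssubset_iff_subset_ne.2 ⟨inter_subset_right, fun he => haX ?_⟩
    have : a ∈ X c ∩ S := by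
      rw [he]
      exact ha
    exact (mem_inter.1 this).1
  have h11 := card_lt_card h10
  omega

end Vale.Agent.P038.H571
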