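import Vale.Agent.P038.H571.Cut
import Vale.Agent.P038.H71.Plan

/-!
# P038 (H571): every oriented graph has a vertex with `|N₁⁺| ≤ |N₂⁺|`
-/

namespace Vale.Agent.P038.H571

open Finset Vale.Agent.P038.H139 Vale.Agent.P038.H71

universe u

variable {V : Type u} [Fintype V]

theorem W_one (S : Finset V) : W (fun _ => (1 : ℝ)) S = S.card := by
  simp [W]

theorem Fw_one (D : OGraph V) (v : V) :
    Fw 1 D (fun _ => (1 : ℝ)) v = ((N1 D v).card : ℝ) - (N2 D v).card := by
  rw [Fw, W_one, W_one, one_mul]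

/-- in a counterexample with the fewest arcs -/
theorem strictG [DecidableEq V] {D : OGraph V} (h : ∀ v, (N2 D v).card < (N1 D v).card)
    (hmin : ∀ D' : OGraph V, numArcs D' < numArcs D → ∃ v, (N1 D' v).card ≤ (N2 D' v).card)
    (X : Finset V) (hX : (Lx D X).Nonempty) :
    (H139.cl D (Lx D X) \ X).card < 2 * (Lx D X).card := by
  have h1 : ∀ v, 1 ≤ Fw 1 D (fun _ => (1 : ℝ)) v := by
    intro v
    rw [Fw_one]
    have h2 : ((N2 D v).card : ℝ) + 1 ≤ (N1 D v).card := by exact_mod_cast h v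
    linarith
  obtain ⟨T, hT, hTmin⟩ := Finset.exists_min_image (Lx D X).powerset
    (dd 1 D (fun _ => (1 : ℝ)) X) ⟨∅, Finset.empty_mem_powerset _⟩
  rw [Finset.mem_powerset] at hT
  have h2 := del_rows (lam := 1) (D := D) (w := fun _ => (1 : ℝ)) (fun _ => zero_le_one) h1 X T hT
    (fun S _ hS => hTmin S (Finset.mem_powerset.2 hS))
  have h3 : ∀ T', T' ⊆ Lx D X → T' ≠ Lx D X →
      ¬ ∀ S, S ⊆ Lx D X → dd 1 D (fun _ => (1 : ℝ)) X T' ≤ dd 1 D (fun _ => (1 : ℝ)) X S := by
    intro T' hT' hne hall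
    have h4 := del_rows (lam := 1) (D := D) (w := fun _ => (1 : ℝ)) (fun _ => zero_le_one) h1 X
      T' hT' (fun S _ hS => hall S hS)
    obtain ⟨z, hzL, hzT⟩ : ∃ z ∈ Lx D X, z ∉ T' := by
      by_contra hc
      push Not at hc
      exact hne (Finset.Subset.antisymm hT' hc)
    have hzL' : z ∈ outS D X \ X := hzL
    obtain ⟨y, hy, hyz⟩ := mem_outS.1 (Finset.mem_sdiff.1 hzL').1
    have h5 := numArcs_lt_del (D := D) (Z := Lx D X \ T') hy (Finset.mem_sdiff.2 ⟨hzL, hzT⟩) hyz
    obtain ⟨v, hv⟩ := hmin _ h5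
    have h6 := h4 v
    rw [Fw_one] at h6
    have h7 : ((N1 (del D X (Lx D X \ T')) v).card : ℝ) ≤ (N2 (del D X (Lx D X \ T')) v).card := by
      exact_mod_cast hv
    linarith
  have hTL : T = Lx D X := by
    by_contra hne
    exact h3 T hT hne fun S hS => hTmin S (Finset.mem_powerset.2 hS)
  have h4 : dd 1 D (fun _ => (1 : ℝ)) X (Lx D X) < dd 1 D (fun _ => (1 : ℝ)) X ∅ := by
    rw [← hTL]
    rcases lt_or_eq_of_le (hTmin ∅ (Finset.empty_mem_powerset _)) with h5 | h5
    · exact h5
    · exfalso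
      refine h3 ∅ (Finset.empty_subset _) (fun he => ?_) fun S hS => ?_
      · rw [← he] at hX
        exact Finset.not_nonempty_empty hX
      · rw [← h5]
        exact hTmin S (Finset.mem_powerset.2 hS)
  have h5 : H139.cl D ∅ = ∅ := by
    ext z
    simp [H139.mem_cl]
  unfold dd at h4
  rw [h5, W_one, W_one, W_one, W_one, Finset.empty_sdiff, Finset.card_empty, Nat.cast_zero] at h4
  have h6 : ((H139.cl D (Lx D X) \ X).card : ℝ) < 2 * (Lx D X).card := by linarith
  exact_mod_cast h6

/-- closed out-neighbourhood -/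
noncomputable def Nc [DecidableEq V] (D : OGraph V) (a : V) : Finset V := insert a (N1 D a)

theorem mem_Nc [DecidableEq V] {D : OGraph V} {a x : V} : x ∈ Nc D a ↔ x = a ∨ D.arc a x := by
  rw [Nc, Finset.mem_insert, mem_N1]

theorem cl_eq [DecidableEq V] (D : OGraph V) (X : Finset V) : cl (Nc D) X = X ∪ Lx D X := by
  ext v
  rw [mem_cl, Finset.mem_union, Lx, Finset.mem_sdiff, mem_outS]
  constructor
  · rintro ⟨x, hx, hv⟩
    rcases mem_Nc.1 hv with rfl | hv
    · exact Or.inl hx
    · by_cases hvX : v ∈ X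
      · exact Or.inl hvX
      · exact Or.inr ⟨⟨x, hx, hv⟩, hvX⟩
  · rintro (hv | ⟨⟨x, hx, hv⟩, _⟩)
    · exact ⟨v, hv, mem_Nc.2 (Or.inl rfl)⟩
    · exact ⟨x, hx, mem_Nc.2 (Or.inr hv)⟩

theorem cl_cl [DecidableEq V] (D : OGraph V) (X : Finset V) :
    cl (Nc D) (cl (Nc D) X) ⊆ X ∪ H139.cl D (Lx D X) := by
  intro v hv
  obtain ⟨x, hx, hv⟩ := mem_cl.1 hv
  rw [cl_eq] at hx
  rw [Finset.mem_union]
  by_cases hvX : v ∈ X
  · exact Or.inl hvX
  right
  rcases Finset.mem_union.1 hx with hx | hx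
  · rcases mem_Nc.1 hv with rfl | hv
    · exact absurd hx hvX
    · exact H139.mem_cl.2 (Or.inl (Finset.mem_sdiff.2 ⟨mem_outS.2 ⟨x, hx, hv⟩, hvX⟩))
  · rcases mem_Nc.1 hv with rfl | hv
    · exact H139.mem_cl.2 (Or.inl hx)
    · exact H139.mem_cl.2 (Or.inr ⟨x, hx, hv⟩)

/-- **Seymour's second neighbourhood conjecture.** -/
theorem snc [Nonempty V] (D : OGraph V) : ∃ v, (N1 D v).card ≤ (N2 D v).card := by
  classical
  suffices H : ∀ (k : ℕ) (D : OGraph V), numArcs D = k → ∃ v, (N1 D v).card ≤ (N2 D v).card from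
    H _ D rfl
  intro k
  induction k using Nat.strong_induction_on with
  | _ k ih =>
    intro D hD
    by_contra hcon
    push Not at hcon
    have hG := strictG hcon (fun D' h' => ih _ (hD ▸ h') D' rfl)
    have hN : ∀ a, a ∈ Nc D a := fun a => mem_Nc.2 (Or.inl rfl)
    have hanti : ∀ a b, b ∈ Nc D a → a ∈ Nc D b → a = b := by
      intro a b h1 h2
      rcases mem_Nc.1 h1 with h1 | h1
      · exact h1.symm
      · rcases mem_Nc.1 h2 with h2 | h2
        · exact h2
        · exact absurd h2 (D.asymm _ _ h1)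
    obtain ⟨a, ha⟩ := sink hN hanti (fun S hS => by
      have hL : (Lx D S).Nonempty := by
        by_contra hne
        rw [Finset.not_nonempty_iff_eq_empty] at hne
        apply hS
        rw [cl_eq, hne, Finset.union_empty]
      have h1 := hG S hL
      have h2 := card_le_card (cl_cl D S)
      have hdis : Disjoint S (Lx D S) := by
        rw [Finset.disjoint_left]
        intro x hx hx'
        exact (Finset.mem_sdiff.1 (show x ∈ outS D S \ S from hx')).2 hx
      have h3 : (cl (Nc D) S).card = S.card + (Lx D S).card := by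
        rw [cl_eq, card_union_of_disjoint hdis]
      have h4 : (S ∪ H139.cl D (Lx D S)).card ≤ S.card + (H139.cl D (Lx D S) \ S).card := by
        rw [← Finset.union_sdiff_self_eq_union]
        exact card_union_le _ _
      unfold cc
      omega)
    have h1 := hcon a
    have h2 : N1 D a = ∅ := by
      ext x
      rw [mem_N1]
      constructor
      · intro hx
        have h3 : x ∈ Nc D a := mem_Nc.2 (Or.inr hx)
        rw [ha, Finset.mem_singleton] at h3
        subst h3
        exact absurd hx (D.loopless _)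
      · intro hx
        exact absurd hx (Finset.notMem_empty _)
    rw [h2, Finset.card_empty] at h1
    omega

end Vale.Agent.P038.H571
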