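import Mathlib

/-!
# P038 (H571): the two cut problems on pairs of relations (unweighted)
-/

namespace Vale.Agent.P038.H571

open Finset

variable {V : Type*} [Fintype V] [DecidableEq V]

/-- closed neighbourhood of a set -/
def cl (N : V → Finset V) (X : Finset V) : Finset V := X.biUnion N

theorem mem_cl {N : V → Finset V} {X : Finset V} {v : V} : v ∈ cl N X ↔ ∃ x ∈ X, v ∈ N x :=
  mem_biUnion

/-- `|N[X]| - |X|` -/
def cc (N : V → Finset V) (X : Finset V) : ℤ := ((cl N X).card : ℤ) - X.card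

theorem cl_mono {N : V → Finset V} {X Y : Finset V} (h : X ⊆ Y) : cl N X ⊆ cl N Y := by
  intro v hv
  obtain ⟨x, hx, hv⟩ := mem_cl.1 hv
  exact mem_cl.2 ⟨x, h hx, hv⟩

theorem cc_sub (N : V → Finset V) (Y Z : Finset V) :
    cc N (Y ∪ Z) + cc N (Y ∩ Z) ≤ cc N Y + cc N Z := by
  have h1 : cl N (Y ∪ Z) = cl N Y ∪ cl N Z := by
    ext v
    simp only [mem_cl, mem_union]
    constructor
    · rintro ⟨x, hx | hx, hv⟩
      · exact Or.inl ⟨x, hx, hv⟩
      · exact Or.inr ⟨x, hx, hv⟩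
    · rintro (⟨x, hx, hv⟩ | ⟨x, hx, hv⟩)
      · exact ⟨x, Or.inl hx, hv⟩
      · exact ⟨x, Or.inr hx, hv⟩
  have h2 : cl N (Y ∩ Z) ⊆ cl N Y ∩ cl N Z :=
    subset_inter (cl_mono inter_subset_left) (cl_mono inter_subset_right)
  have h3 := card_union_add_card_inter (cl N Y) (cl N Z)
  have h4 := card_union_add_card_inter Y Z
  have h5 := card_le_card h2
  unfold cc
  rw [h1]
  omega

/-- `min { cc Y : P ∪ (W ∩ Q) ⊆ Y ⊆ Q }` for `P ⊆ Q` -/
noncomputable def kk (N : V → Finset V) (P Q W : Finset V) : ℤ :=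
  (univ : Finset (Finset V)).inf' univ_nonempty fun Y => cc N (P ∪ (W ∩ Q) ∪ (Y ∩ Q))

theorem kk_le {N : V → Finset V} {P Q W Y : Finset V} (h1 : P ⊆ Y) (h2 : W ∩ Q ⊆ Y)
    (h3 : Y ⊆ Q) : kk N P Q W ≤ cc N Y := by
  have h : P ∪ (W ∩ Q) ∪ (Y ∩ Q) = Y := by
    rw [inter_eq_left.2 h3]
    exact union_eq_right.2 (union_subset h1 h2)
  have h4 : kk N P Q W ≤ cc N (P ∪ (W ∩ Q) ∪ (Y ∩ Q)) :=
    Finset.inf'_le (fun Y => cc N (P ∪ (W ∩ Q) ∪ (Y ∩ Q))) (mem_univ Y)
  rwa [h] at h4

theorem kk_ex {N : V → Finset V} {P Q : Finset V} (W : Finset V) (hPQ : P ⊆ Q) :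
    ∃ Y, P ⊆ Y ∧ W ∩ Q ⊆ Y ∧ Y ⊆ Q ∧ kk N P Q W = cc N Y := by
  obtain ⟨Y, _, hY⟩ := Finset.exists_mem_eq_inf' (univ_nonempty (α := Finset V))
    (fun Y => cc N (P ∪ (W ∩ Q) ∪ (Y ∩ Q)))
  refine ⟨P ∪ (W ∩ Q) ∪ (Y ∩ Q), ?_, ?_, ?_, hY⟩
  · exact subset_union_left.trans subset_union_left
  · exact subset_union_right.trans subset_union_left
  · exact union_subset (union_subset hPQ inter_subset_right) inter_subset_right

/-- the meet of the rows over the closed in-neighbourhood -/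
def mt (N : V → Finset V) (U : V → Finset V) (z : V) : Finset V :=
  univ.filter fun x => ∀ a, z ∈ N a → x ∈ U a

theorem mem_mt {N U : V → Finset V} {z x : V} : x ∈ mt N U z ↔ ∀ a, z ∈ N a → x ∈ U a := by
  simp [mt]

/-- **the gap inequality** -/
theorem gap {N B U : V → Finset V} (hBU : ∀ a, B a ⊆ U a)
    (hR : ∀ a Y, B a ⊆ Y → Y ⊆ U a → cc N (B a) ≤ cc N Y)
    (hC : ∀ b (S : Finset V), (∀ a ∈ S, b ∈ U a ∧ b ∉ B a) →
      S.card ≤ (S.biUnion fun a => (N a).filter fun z => b ∈ mt N U z).card) :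
    ∑ a, (cc N (U a) - cc N (B a)) ≤ ∑ z, (cc N (mt N U z) - cc N (mt N B z)) := by
  have hmBU : ∀ z, mt N B z ⊆ mt N U z := fun z x hx =>
    mem_mt.2 fun a ha => hBU a (mem_mt.1 hx a ha)
  -- monotonicity of `kk`
  have hmono : ∀ (P Q W : Finset V) (b : V), P ⊆ Q → kk N P Q W ≤ kk N P Q (insert b W) := by
    intro P Q W b hPQ
    obtain ⟨Y, h1, h2, h3, h4⟩ := kk_ex (N := N) (insert b W) hPQ
    rw [h4]
    exact kk_le h1 ((inter_subset_inter_right (subset_insert b W)).trans h2) h3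
  -- no change off the gap
  have hoff : ∀ (P Q W : Finset V) (b : V), P ⊆ Q → (b ∈ Q → b ∈ P) →
      kk N P Q (insert b W) ≤ kk N P Q W := by
    intro P Q W b hPQ hb
    obtain ⟨Y, h1, h2, h3, h4⟩ := kk_ex (N := N) W hPQ
    rw [h4]
    refine kk_le h1 ?_ h3
    intro x hx
    obtain ⟨hx1, hx2⟩ := mem_inter.1 hx
    rcases mem_insert.1 hx1 with rfl | hx1
    · exact h1 (hb hx2)
    · exact h2 (mem_inter.2 ⟨hx1, hx2⟩)
  -- comparison of marginals
  have hcmp : ∀ (W : Finset V) (b a z : V), z ∈ N a → b ∈ mt N U z →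
      kk N (B a) (U a) (insert b W) - kk N (B a) (U a) W ≤
        kk N (mt N B z) (mt N U z) (insert b W) - kk N (mt N B z) (mt N U z) W := by
    intro W b a z hz hb
    obtain ⟨Y, h1, h2, h3, h4⟩ := kk_ex (N := N) (insert b W) (hmBU z)
    obtain ⟨Y', h1', h2', h3', h4'⟩ := kk_ex (N := N) W (hBU a)
    have hMU : mt N U z ⊆ U a := fun x hx => mem_mt.1 hx a hz
    have hmB : mt N B z ⊆ B a := fun x hx => mem_mt.1 hx a hz
    have e1 : kk N (B a) (U a) (insert b W) ≤ cc N (Y ∪ Y') := by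
      refine kk_le (h1'.trans subset_union_right) ?_ (union_subset (h3.trans hMU) h3')
      intro x hx
      obtain ⟨hx1, hx2⟩ := mem_inter.1 hx
      rcases mem_insert.1 hx1 with rfl | hx1
      · exact mem_union_left _ (h2 (mem_inter.2 ⟨mem_insert_self _ _, hb⟩))
      · exact mem_union_right _ (h2' (mem_inter.2 ⟨hx1, hx2⟩))
    have e2 : kk N (mt N B z) (mt N U z) W ≤ cc N (Y ∩ Y') := by
      refine kk_le (subset_inter h1 (hmB.trans h1')) ?_ (inter_subset_left.trans h3)
      intro x hx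
      obtain ⟨hx1, hx2⟩ := mem_inter.1 hx
      exact mem_inter.2 ⟨h2 (mem_inter.2 ⟨mem_insert_of_mem hx1, hx2⟩),
        h2' (mem_inter.2 ⟨hx1, hMU hx2⟩)⟩
    have e3 := cc_sub N Y Y'
    rw [h4, h4']
    linarith
  -- one step
  have hstep : ∀ (W : Finset V) (b : V),
      ∑ a, (kk N (B a) (U a) (insert b W) - kk N (B a) (U a) W) ≤
        ∑ z, (kk N (mt N B z) (mt N U z) (insert b W) - kk N (mt N B z) (mt N U z) W) := by
    intro W b
    set α : V → ℤ := fun a => kk N (B a) (U a) (insert b W) - kk N (B a) (U a) W with hα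
    set γ : V → ℤ := fun z =>
      kk N (mt N B z) (mt N U z) (insert b W) - kk N (mt N B z) (mt N U z) W with hγ
    have hγ0 : ∀ z, 0 ≤ γ z := fun z => sub_nonneg.2 (hmono _ _ W b (hmBU z))
    set G : Finset V := univ.filter fun a => b ∈ U a ∧ b ∉ B a with hG
    have hhall : ∀ s : Finset {a // a ∈ G},
        s.card ≤ (s.biUnion fun a => (N a.1).filter fun z => b ∈ mt N U z).card := by
      intro s
      have h1 := hC b (s.map (Function.Embedding.subtype _)) (fun a ha => by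
        obtain ⟨a', _, rfl⟩ := mem_map.1 ha
        exact (mem_filter.1 a'.2).2)
      rw [card_map] at h1
      refine h1.trans (le_of_eq ?_)
      congr 1
      ext v
      simp only [mem_biUnion, mem_map, Function.Embedding.coe_subtype]
      constructor
      · rintro ⟨a, ⟨a', ha', rfl⟩, hv⟩
        exact ⟨a', ha', hv⟩
      · rintro ⟨a', ha', hv⟩
        exact ⟨a'.1, ⟨a', ha', rfl⟩, hv⟩
    obtain ⟨f, hf, hft⟩ := (Finset.all_card_le_biUnion_card_iff_exists_injective
      (fun a : {a // a ∈ G} => (N a.1).filter fun z => b ∈ mt N U z)).1 hhall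
    have s1 : ∑ a, α a ≤ ∑ a ∈ G, α a := by
      rw [← Finset.sum_filter_add_sum_filter_not univ (fun a => b ∈ U a ∧ b ∉ B a) α]
      have : ∑ a ∈ univ.filter (fun a => ¬(b ∈ U a ∧ b ∉ B a)), α a ≤ 0 := by
        refine Finset.sum_nonpos fun a ha => ?_
        have h1 := (mem_filter.1 ha).2
        exact sub_nonpos.2 (hoff _ _ W b (hBU a) (fun h2 => by
          by_contra h3
          exact h1 ⟨h2, h3⟩))
      linarith
    have s2 : ∑ a ∈ G, α a = ∑ a : {a // a ∈ G}, α a.1 := (Finset.sum_coe_sort G α).symm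
    have s3 : ∑ a : {a // a ∈ G}, α a.1 ≤ ∑ a : {a // a ∈ G}, γ (f a) := by
      refine Finset.sum_le_sum fun a _ => ?_
      have h1 := mem_filter.1 (hft a)
      exact hcmp W b a.1 (f a) h1.1 h1.2
    have s4 : ∑ a : {a // a ∈ G}, γ (f a) = ∑ z ∈ univ.image f, γ z :=
      (Finset.sum_image fun x _ y _ h => hf h).symm
    have s5 : ∑ z ∈ univ.image f, γ z ≤ ∑ z, γ z :=
      Finset.sum_le_univ_sum_of_nonneg hγ0
    linarith
  have key : ∀ W : Finset V,
      ∑ a, (kk N (B a) (U a) W - kk N (B a) (U a) ∅) ≤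
        ∑ z, (kk N (mt N B z) (mt N U z) W - kk N (mt N B z) (mt N U z) ∅) := by
    intro W
    induction W using Finset.induction_on with
    | empty => simp
    | insert b W _ ih =>
      have h1 := hstep W b
      have h2 := add_le_add ih h1
      rw [← Finset.sum_add_distrib, ← Finset.sum_add_distrib] at h2
      refine le_trans (le_of_eq ?_) (h2.trans (le_of_eq ?_))
      · exact Finset.sum_congr rfl fun a _ => by ring
      · exact Finset.sum_congr rfl fun a _ => by ring
  refine le_trans (Finset.sum_le_sum fun a _ => ?_) ((key univ).trans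
    (Finset.sum_le_sum fun z _ => ?_))
  · -- rows
    obtain ⟨Y, h1, h2, h3, h4⟩ := kk_ex (N := N) univ (hBU a)
    have h5 : Y = U a := Subset.antisymm h3 (by rwa [univ_inter] at h2)
    have h6 : kk N (B a) (U a) ∅ ≤ cc N (B a) :=
      kk_le Subset.rfl (by rw [empty_inter]; exact empty_subset _) (hBU a)
    rw [h4, h5]
    linarith
  · have h5 : kk N (mt N B z) (mt N U z) univ ≤ cc N (mt N U z) :=
      kk_le (hmBU z) (by rw [univ_inter]) Subset.rfl
    obtain ⟨Y, h1, h2, h3, h4⟩ := kk_ex (N := N) ∅ (hmBU z)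
    have h6 : ∀ A : Finset V, (∀ a ∈ A, z ∈ N a) →
        cc N (Y.filter fun x => ∀ a ∈ A, x ∈ B a) ≤ cc N Y := by
      intro A
      induction A using Finset.induction_on with
      | empty => intro _; simp
      | insert a A _ ih =>
        intro hA
        have h7 := ih (fun a' ha' => hA a' (mem_insert_of_mem ha'))
        set Z := Y.filter fun x => ∀ a ∈ A, x ∈ B a with hZ
        have h8 : (Y.filter fun x => ∀ a' ∈ insert a A, x ∈ B a') = Z ∩ B a := by
          ext x
          simp only [hZ, mem_filter, mem_inter, mem_insert, forall_eq_or_imp]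
          tauto
        have hZU : Z ⊆ U a := fun x hx =>
          mem_mt.1 (h3 (mem_filter.1 hx).1) a (hA a (mem_insert_self _ _))
        have h9 := hR a (Z ∪ B a) subset_union_right (union_subset hZU (hBU a))
        have h10 := cc_sub N Z (B a)
        rw [h8]
        linarith
    have h7 := h6 (univ.filter fun a => z ∈ N a) (fun a ha => (mem_filter.1 ha).2)
    have h8 : (Y.filter fun x => ∀ a ∈ univ.filter (fun a => z ∈ N a), x ∈ B a) =
        mt N B z := by
      ext x
      rw [mem_filter, mem_mt]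
      constructor
      · rintro ⟨_, hx⟩ a ha
        exact hx a (mem_filter.2 ⟨mem_univ _, ha⟩)
      · intro hx
        exact ⟨h1 (mem_mt.2 hx), fun a ha => hx a (mem_filter.1 ha).2⟩
    rw [h8] at h7
    rw [h4]
    linarith

end Vale.Agent.P038.H571
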